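import Mathlib

/-! High lemniscates are convex. -/

namespace Vale.Agent.H13.Crouzeix

open Polynomial Finset
open scoped InnerProductSpace Topology

theorem convex_of {P : ℂ[X]} {M : ℝ}
    (h : ∀ z : ℂ, M < ‖P.eval z‖ →
      ‖P.eval z‖ * ‖P.derivative.derivative.eval z‖ < ‖P.derivative.eval z‖ ^ 2) :
    Convex ℝ {z : ℂ | ‖P.eval z‖ ≤ M} := by
  rw [convex_iff_segment_subset]
  intro z0 h0 z1 h1 z hz
  have h0' : ‖P.eval z0‖ ≤ M := h0
  have h1' : ‖P.eval z1‖ ≤ M := h1
  have hM : 0 ≤ M := le_trans (norm_nonneg _) h0'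
  rw [segment_eq_image'] at hz
  obtain ⟨t, ht, rfl⟩ := hz
  by_contra hcon
  set d : ℂ := z1 - z0 with hd
  have hcon' : M < ‖P.eval (z0 + t • d)‖ := not_le.1 hcon
  have hd0 : d ≠ 0 := by
    intro h2
    rw [h2, smul_zero, add_zero] at hcon'
    linarith
  set F : ℝ → ℂ := fun t => P.eval (z0 + (t : ℂ) * d) with hF
  set F1 : ℝ → ℂ := fun t => P.derivative.eval (z0 + (t : ℂ) * d) * d with hF1
  set F2 : ℝ → ℂ := fun t => P.derivative.derivative.eval (z0 + (t : ℂ) * d) * d * d with hF2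
  have hgen : ∀ (Q : ℂ[X]) (t : ℝ), HasDerivAt (fun t : ℝ => Q.eval (z0 + (t : ℂ) * d))
      (Q.derivative.eval (z0 + (t : ℂ) * d) * d) t := by
    intro Q t
    have h1 : HasDerivAt (fun w : ℂ => z0 + w * d) d (t : ℂ) := by
      have := ((hasDerivAt_id (t : ℂ)).mul_const d).const_add z0
      simpa using this
    have h3 := Q.hasDerivAt (z0 + (t : ℂ) * d)
    exact (h3.comp (t : ℂ) h1).comp_ofReal
  have hdF : ∀ t, HasDerivAt F (F1 t) t := fun t => hgen P t
  have hdF1 : ∀ t, HasDerivAt F1 (F2 t) t := fun t => (hgen P.derivative t).mul_const d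
  set g : ℝ → ℝ := fun t => ‖F t‖ ^ 2 with hg
  have hdg : ∀ t, HasDerivAt g (2 * ⟪F t, F1 t⟫_ℝ) t := fun t => (hdF t).norm_sq
  have hdg' : deriv g = fun t => 2 * ⟪F t, F1 t⟫_ℝ := by
    funext t
    exact (hdg t).deriv
  have hddg : ∀ t, HasDerivAt (deriv g) (2 * (⟪F t, F2 t⟫_ℝ + ⟪F1 t, F1 t⟫_ℝ)) t := by
    intro t
    rw [hdg']
    exact ((hdF t).inner ℝ (hdF1 t)).const_mul 2
  have hgc : Continuous g := by
    rw [continuous_iff_continuousAt]
    intro t
    exact (hdg t).continuousAt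
  obtain ⟨s, hs, hmax⟩ := isCompact_Icc.exists_isMaxOn (Set.nonempty_Icc.2 (zero_le_one (α := ℝ)))
    hgc.continuousOn
  have hgs : M ^ 2 < g s := by
    have h2 : g t ≤ g s := hmax ht
    have h3 : M ^ 2 < g t := by
      rw [hg, hF]
      dsimp only
      have : z0 + (t : ℂ) * d = z0 + t • d := by rw [Complex.real_smul]
      rw [this]
      exact pow_lt_pow_left₀ hcon' hM (by norm_num)
    linarith
  have hs0 : s ≠ 0 := by
    intro h2
    rw [h2, hg, hF] at hgs
    simp only [Complex.ofReal_zero, zero_mul, add_zero] at hgs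
    have := pow_le_pow_left₀ (norm_nonneg _) h0' 2
    linarith
  have hs1 : s ≠ 1 := by
    intro h2
    rw [h2, hg, hF] at hgs
    simp only [Complex.ofReal_one, one_mul] at hgs
    have e : z0 + d = z1 := by rw [hd]; ring
    rw [e] at hgs
    have := pow_le_pow_left₀ (norm_nonneg _) h1' 2
    linarith
  have hsI : s ∈ Set.Ioo (0:ℝ) 1 := ⟨lt_of_le_of_ne hs.1 (Ne.symm hs0), lt_of_le_of_ne hs.2 hs1⟩
  have hloc : IsLocalMax g s := hmax.isLocalMax (Icc_mem_nhds hsI.1 hsI.2)
  have hd1 : deriv g s = 0 := hloc.deriv_eq_zero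
  have hFs : M < ‖F s‖ := by
    by_contra h2
    push Not at h2
    have := pow_le_pow_left₀ (norm_nonneg _) h2 2
    linarith
  have hpos : 0 < deriv (deriv g) s := by
    rw [(hddg s).deriv]
    have h2 := h _ hFs
    have hdn : 0 < ‖d‖ := norm_pos_iff.2 hd0
    have h3 : ‖F s‖ * ‖F2 s‖ < ‖F1 s‖ ^ 2 := by
      rw [hF, hF1, hF2]
      dsimp only
      rw [norm_mul, norm_mul, norm_mul]
      calc _ = (‖P.eval (z0 + (s : ℂ) * d)‖ * ‖P.derivative.derivative.eval (z0 + (s : ℂ) * d)‖) *
            ‖d‖ ^ 2 := by ring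
        _ < ‖P.derivative.eval (z0 + (s : ℂ) * d)‖ ^ 2 * ‖d‖ ^ 2 :=
            mul_lt_mul_of_pos_right h2 (by positivity)
        _ = _ := by ring
    have h4 : -(‖F s‖ * ‖F2 s‖) ≤ ⟪F s, F2 s⟫_ℝ := by
      have := abs_real_inner_le_norm (F s) (F2 s)
      rw [abs_le] at this
      exact this.1
    rw [real_inner_self_eq_norm_sq]
    linarith
  have hmin : IsLocalMin g s := isLocalMin_of_deriv_deriv_pos hpos hd1 (hdg s).continuousAt
  have hconst : ∀ᶠ r in 𝓝 s, g r = g s := by
    filter_upwards [hloc, hmin] with r h5 h6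
    exact le_antisymm h5 h6
  have hd0' : deriv g =ᶠ[𝓝 s] fun _ => 0 := by
    have h7 : g =ᶠ[𝓝 s] fun _ => g s := hconst
    have h8 := h7.deriv
    filter_upwards [h8] with r hr
    rw [hr]
    simp
  have h9 : deriv (deriv g) s = 0 := by
    rw [hd0'.deriv_eq]
    simp
  linarith

theorem lim_coeff (Q : ℂ[X]) (m : ℕ) (hQ : Q.natDegree ≤ m) :
    Filter.Tendsto (fun z : ℂ => Q.eval z / z ^ m) (Bornology.cobounded ℂ) (𝓝 (Q.coeff m)) := by
  have h1 : ∀ z : ℂ, Q.eval z / z ^ m = ∑ i ∈ Finset.range (m + 1), Q.coeff i * (z ^ i / z ^ m) := by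
    intro z
    rw [eval_eq_sum_range' (Nat.lt_succ_of_le hQ), Finset.sum_div]
    apply Finset.sum_congr rfl
    intro i _
    ring
  simp only [h1]
  have h2 : Q.coeff m = ∑ i ∈ Finset.range (m + 1), (if i = m then Q.coeff m else 0) := by
    rw [Finset.sum_ite_eq']
    simp
  rw [h2]
  apply tendsto_finsetSum
  intro i hi
  have hne : ∀ᶠ z : ℂ in Bornology.cobounded ℂ, z ≠ 0 := by
    have : Bornology.IsBounded ({0} : Set ℂ) := Bornology.isBounded_singleton
    exact Bornology.isBounded_def.1 this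
  by_cases him : i = m
  · rw [if_pos him, him]
    have : (fun z : ℂ => Q.coeff m * (z ^ m / z ^ m)) =ᶠ[Bornology.cobounded ℂ]
        fun _ => Q.coeff m := by
      filter_upwards [hne] with z hz
      rw [div_self (pow_ne_zero _ hz), mul_one]
    exact (Filter.tendsto_congr' this).2 tendsto_const_nhds
  · rw [if_neg him]
    have hlt : i < m := lt_of_le_of_ne (Nat.lt_succ_iff.1 (Finset.mem_range.1 hi)) him
    have h3 : Filter.Tendsto (fun z : ℂ => (z⁻¹) ^ (m - i)) (Bornology.cobounded ℂ) (𝓝 0) := by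
      have h4 : Filter.Tendsto (fun z : ℂ => z⁻¹) (Bornology.cobounded ℂ) (𝓝 0) :=
        Filter.tendsto_inv₀_cobounded
      have h5 := h4.pow (m - i)
      rwa [zero_pow (by omega)] at h5
    have h6 := h3.const_mul (Q.coeff i)
    rw [mul_zero] at h6
    apply (Filter.tendsto_congr' _).2 h6
    filter_upwards [hne] with z hz
    congr 1
    rw [inv_pow, div_eq_iff (pow_ne_zero _ hz)]
    rw [inv_mul_eq_div, eq_div_iff (pow_ne_zero _ hz), ← pow_add]
    congr 1
    omega

theorem exists_threshold (P : ℂ[X]) : ∃ M0 : ℝ, 0 < M0 ∧ ∀ M, M0 ≤ M →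
    Convex ℝ {z : ℂ | ‖P.eval z‖ ≤ M} := by
  by_cases hP : P.natDegree = 0
  · obtain ⟨c, hc⟩ := natDegree_eq_zero.1 hP
    refine ⟨‖c‖ + 1, by positivity, ?_⟩
    intro M hM
    have : {z : ℂ | ‖P.eval z‖ ≤ M} = Set.univ := by
      ext z
      rw [← hc]
      simp only [eval_C, Set.mem_ofPred_eq, Set.mem_univ, iff_true]
      linarith
    rw [this]
    exact convex_univ
  · obtain ⟨k, hk⟩ := Nat.exists_eq_succ_of_ne_zero hP
    set c := P.coeff (k + 1) with hc
    have hc0 : c ≠ 0 := by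
      rw [hc, show k + 1 = P.natDegree from hk.symm]
      rw [coeff_natDegree]
      intro h
      rw [leadingCoeff_eq_zero] at h
      rw [h] at hP
      simp at hP
    have hd1 : P.derivative.natDegree ≤ k := by
      have := natDegree_derivative_le P
      omega
    have hd2 : P.derivative.derivative.natDegree ≤ k - 1 := by
      have := natDegree_derivative_le P.derivative
      omega
    have hL0 := lim_coeff P (k + 1) hk.le
    have hL1 := lim_coeff (X * P.derivative) (k + 1) (by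
      refine le_trans natDegree_mul_le ?_
      rw [natDegree_X]
      omega)
    have hn2 : (X * (X * P.derivative.derivative) : ℂ[X]).natDegree ≤ k + 1 := by
      by_cases hk0 : k = 0
      · have h0 : P.derivative.derivative = 0 := by
          have : P.derivative.natDegree = 0 := by omega
          obtain ⟨b, hb⟩ := natDegree_eq_zero.1 this
          rw [← hb, derivative_C]
        rw [h0]
        simp
      · refine le_trans natDegree_mul_le ?_
        rw [natDegree_X]
        have := natDegree_mul_le (p := (X : ℂ[X])) (q := P.derivative.derivative)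
        rw [natDegree_X] at this
        omega
    have hL2 := lim_coeff (X * (X * P.derivative.derivative)) (k + 1) hn2
    have hc1 : (X * P.derivative : ℂ[X]).coeff (k + 1) = c * (k + 1) := by
      rw [coeff_X_mul, coeff_derivative]
    have hc2 : (X * (X * P.derivative.derivative) : ℂ[X]).coeff (k + 1) = c * (k + 1) * k := by
      rw [coeff_X_mul]
      cases k with
      | zero => simp
      | succ j =>
        rw [coeff_X_mul, coeff_derivative, coeff_derivative]
        push_cast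
        ring
    rw [hc1] at hL1
    rw [hc2] at hL2
    have hA := (hL0.norm.mul hL2.norm)
    have hB := hL1.norm.pow 2
    have hlt : ‖P.coeff (k + 1)‖ * ‖c * (k + 1) * k‖ < ‖c * (k + 1)‖ ^ 2 := by
      have hcn : 0 < ‖c‖ := norm_pos_iff.2 hc0
      have e1 : ‖((k:ℂ) + 1)‖ = k + 1 := by
        have : ((k:ℂ) + 1) = ((k + 1 : ℕ) : ℂ) := by push_cast; rfl
        rw [this, Complex.norm_natCast]
        push_cast
        rfl
      have e2 : ‖(k:ℂ)‖ = k := Complex.norm_natCast k
      rw [norm_mul, norm_mul, e1, e2, ← hc]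
      have hk0 : (0:ℝ) ≤ k := by positivity
      have : ‖c‖ * (‖c‖ * (k + 1) * k) = ‖c‖ ^ 2 * (k + 1) * k := by ring
      rw [this]
      have h3 : (‖c‖ * ((k:ℝ) + 1)) ^ 2 = ‖c‖ ^ 2 * (k + 1) * (k + 1) := by ring
      rw [h3]
      have : 0 < ‖c‖ ^ 2 * ((k:ℝ) + 1) := by positivity
      nlinarith
    have hev := hA.eventually_lt hB hlt
    have hne : ∀ᶠ z : ℂ in Bornology.cobounded ℂ, z ≠ 0 := by
      have : Bornology.IsBounded ({0} : Set ℂ) := Bornology.isBounded_singleton
      exact Bornology.isBounded_def.1 this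
    have hev2 : ∀ᶠ z : ℂ in Bornology.cobounded ℂ,
        ‖P.eval z‖ * ‖P.derivative.derivative.eval z‖ < ‖P.derivative.eval z‖ ^ 2 := by
      filter_upwards [hev, hne] with z hz hz0
      have hzn : 0 < ‖z‖ := norm_pos_iff.2 hz0
      simp only [eval_mul, eval_X, norm_div, norm_mul, norm_pow] at hz
      have hp : 0 < ‖z‖ ^ (k + 1) := by positivity
      rw [div_mul_div_comm, div_pow, ← sq, div_lt_div_iff_of_pos_right (by positivity)] at hz
      have h4 : ‖P.eval z‖ * (‖z‖ * (‖z‖ * ‖P.derivative.derivative.eval z‖)) =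
          ‖z‖ ^ 2 * (‖P.eval z‖ * ‖P.derivative.derivative.eval z‖) := by ring
      have h5 : (‖z‖ * ‖P.derivative.eval z‖) ^ 2 = ‖z‖ ^ 2 * ‖P.derivative.eval z‖ ^ 2 := by ring
      rw [h4, h5] at hz
      exact lt_of_mul_lt_mul_left hz (by positivity)
    obtain ⟨R, -, hR⟩ := (Metric.hasBasis_cobounded_compl_closedBall (0:ℂ)).eventually_iff.1 hev2
    have hcomp : IsCompact (Metric.closedBall (0:ℂ) R) := isCompact_closedBall _ _
    have hbdd : BddAbove ((fun z => ‖P.eval z‖) '' Metric.closedBall (0:ℂ) R) :=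
      (hcomp.image (by fun_prop)).bddAbove
    obtain ⟨B, hB'⟩ := hbdd
    refine ⟨max B 1, by positivity, ?_⟩
    intro M hM
    apply convex_of
    intro z hz
    apply hR
    intro hzR
    have h6 : ‖P.eval z‖ ≤ B := hB' ⟨z, hzR, rfl⟩
    have h7 : B ≤ M := le_trans (le_max_left _ _) hM
    linarith

end Vale.Agent.H13.Crouzeix
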