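import Mathlib

/-! Convex lemniscates and numerical ranges. -/

namespace Vale.Agent.H13.Crouzeix

open Polynomial Finset
open scoped InnerProductSpace Topology

/-- support condition for convex lemniscates -/
theorem support {P : ℂ[X]} {M : ℝ} (hconv : Convex ℝ {z : ℂ | ‖P.eval z‖ ≤ M})
    {σ z : ℂ} (hσ : ‖P.eval σ‖ = M) (hz : ‖P.eval z‖ ≤ M) :
    0 ≤ ((starRingEnd ℂ) (P.eval σ) * (P.derivative.eval σ * (σ - z))).re := by
  set d : ℂ := z - σ with hd
  set f : ℝ → ℝ := fun t => ((starRingEnd ℂ) (P.eval σ) * P.eval (σ + t * d)).re with hf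
  have hder : HasDerivAt f ((starRingEnd ℂ) (P.eval σ) * (P.derivative.eval σ * d)).re 0 := by
    have h1 : HasDerivAt (fun w : ℂ => σ + w * d) d ((0:ℝ):ℂ) := by
      have := ((hasDerivAt_id ((0:ℝ):ℂ)).mul_const d).const_add σ
      simpa using this
    have h2 : HasDerivAt (fun w : ℂ => P.eval (σ + w * d)) (P.derivative.eval σ * d) ((0:ℝ):ℂ) := by
      have h3 := P.hasDerivAt (σ + ((0:ℝ):ℂ) * d)
      have h4 := h3.comp ((0:ℝ):ℂ) h1
      have e : σ + ((0:ℝ):ℂ) * d = σ := by simp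
      rw [e] at h4
      exact h4
    have h3 := (h2.comp_ofReal).const_mul ((starRingEnd ℂ) (P.eval σ))
    exact Complex.reCLM.hasFDerivAt.comp_hasDerivAt (0:ℝ) h3
  have hle : ∀ t : ℝ, 0 < t → t < 1 → f t ≤ f 0 := by
    intro t h0 h1
    have hmem : σ + t * d ∈ {z : ℂ | ‖P.eval z‖ ≤ M} := by
      have := hconv (show σ ∈ {z : ℂ | ‖P.eval z‖ ≤ M} from hσ.le)
        (show z ∈ {z : ℂ | ‖P.eval z‖ ≤ M} from hz) (show (0:ℝ) ≤ 1 - t by linarith) h0.le
        (by ring)
      convert this using 1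
      rw [hd, Complex.real_smul, Complex.real_smul]
      push_cast
      ring
    have h2 : f 0 = M ^ 2 := by
      rw [hf]
      dsimp only
      rw [Complex.ofReal_zero, zero_mul, add_zero, mul_comm, Complex.mul_conj, Complex.ofReal_re,
        Complex.normSq_eq_norm_sq, hσ]
    rw [h2]
    calc f t ≤ ‖(starRingEnd ℂ) (P.eval σ) * P.eval (σ + t * d)‖ := Complex.re_le_norm _
      _ = ‖P.eval σ‖ * ‖P.eval (σ + t * d)‖ := by rw [norm_mul, RCLike.norm_conj]
      _ ≤ M * M := by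
        rw [hσ]
        exact mul_le_mul_of_nonneg_left hmem (by rw [← hσ]; exact norm_nonneg _)
      _ = M ^ 2 := by ring
  have hlim := hder.tendsto_slope_zero_right
  have h3 : ((starRingEnd ℂ) (P.eval σ) * (P.derivative.eval σ * d)).re ≤ 0 := by
    apply le_of_tendsto hlim
    have : Set.Ioo (0:ℝ) 1 ∈ 𝓝[>] (0:ℝ) := Ioo_mem_nhdsGT (by norm_num)
    filter_upwards [this] with t ht
    rw [zero_add, smul_eq_mul]
    exact mul_nonpos_of_nonneg_of_nonpos (inv_nonneg.2 ht.1.le) (by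
      have := hle t ht.1 ht.2
      linarith)
  have h4 : (starRingEnd ℂ) (P.eval σ) * (P.derivative.eval σ * (σ - z)) =
      -((starRingEnd ℂ) (P.eval σ) * (P.derivative.eval σ * d)) := by
    rw [hd]
    ring
  rw [h4, Complex.neg_re]
  linarith

variable {H : Type*} [NormedAddCommGroup H] [InnerProductSpace ℂ H]

theorem factor {P : ℂ[X]} (hP : P.natDegree ≠ 0) {ζ : ℂ}
    (hζ : ∀ c, P.derivative.eval c = 0 → P.eval c ≠ ζ) :
    ∃ (s : Finset ℂ) (l : ℂ), s.Nonempty ∧ (∀ σ ∈ s, P.eval σ = ζ) ∧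
      P - C ζ = C l * Lagrange.nodal s id := by
  set R := P - C ζ with hR
  have hdeg : R.natDegree = P.natDegree := natDegree_sub_C
  have hR0 : R ≠ 0 := by
    intro h
    rw [h, natDegree_zero] at hdeg
    exact hP hdeg.symm
  have hroot : ∀ σ, R.IsRoot σ ↔ P.eval σ = ζ := by
    intro σ
    rw [hR, IsRoot.def, eval_sub, eval_C, sub_eq_zero]
  have hnodup : R.roots.Nodup := by
    rw [Multiset.nodup_iff_count_le_one]
    intro c
    rw [count_roots]
    by_contra hcon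
    push Not at hcon
    rw [one_lt_rootMultiplicity_iff_isRoot hR0] at hcon
    have h1 := (hroot c).1 hcon.1
    have h2 : P.derivative.eval c = 0 := by
      have := hcon.2
      rw [hR, derivative_sub, derivative_C, sub_zero] at this
      exact this
    exact hζ c h2 h1
  have hsp : R.Splits := IsAlgClosed.splits R
  have hprod := hsp.eq_prod_roots
  refine ⟨R.roots.toFinset, R.leadingCoeff, ?_, ?_, ?_⟩
  · obtain ⟨c, hc⟩ := IsAlgClosed.exists_root R (by
      rw [degree_eq_natDegree hR0, hdeg]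
      exact_mod_cast hP)
    exact ⟨c, by rw [Multiset.mem_toFinset, mem_roots hR0]; exact hc⟩
  · intro σ hσ
    rw [Multiset.mem_toFinset, mem_roots hR0] at hσ
    exact (hroot σ).1 hσ
  · conv_lhs => rw [hprod]
    congr 1
    rw [Lagrange.nodal_eq, Finset.prod_eq_multiset_prod]
    rw [Multiset.toFinset_val, hnodup.dedup]
    rfl

theorem key {P : ℂ[X]} {M : ℝ} (hP : P.natDegree ≠ 0)
    (hconv : Convex ℝ {z : ℂ | ‖P.eval z‖ ≤ M}) (A : H →L[ℂ] H)
    (hA : ∀ x : H, ‖x‖ = 1 → ‖P.eval ⟪x, A x⟫_ℂ‖ ≤ M) {ζ : ℂ} (hζM : ‖ζ‖ = M)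
    (hζ : ∀ c, P.derivative.eval c = 0 → P.eval c ≠ ζ) (x : H) :
    ((starRingEnd ℂ) ζ * ⟪x, aeval A P x⟫_ℂ).re ≤ M ^ 2 * ‖x‖ ^ 2 := by
  obtain ⟨s, l, hne, hs, hfac⟩ := factor hP hζ
  have hinj : Set.InjOn (id : ℂ → ℂ) (s : Set ℂ) := Function.injective_id.injOn
  have hsum := Lagrange.sum_basis hinj hne
  set u : ℂ → H := fun σ => aeval A (Lagrange.basis s id σ) x with hu
  have hux : ∑ σ ∈ s, u σ = x := by
    have h1 := congrArg (fun q => aeval A q x) hsum
    simp only [map_sum, map_one, ContinuousLinearMap.sum_apply, ContinuousLinearMap.one_apply] at h1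
    exact h1
  have hRx : ∀ σ ∈ s, ζ • x - aeval A P x = P.derivative.eval σ • (σ • u σ - A (u σ)) := by
    intro σ hσ
    have h1 : P - C ζ = C (P.derivative.eval σ) * ((X - C σ) * Lagrange.basis s id σ) := by
      have h2 : P.derivative.eval σ = l * (Lagrange.nodal (s.erase σ) id).eval σ := by
        have h3 : P.derivative = C l * (Lagrange.nodal s id).derivative := by
          have := congrArg derivative hfac
          simpa using this
        rw [h3, eval_mul, eval_C]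
        have := Lagrange.eval_nodal_derivative_eval_node_eq (v := (id : ℂ → ℂ)) hσ
        simp only [id] at this
        rw [← this]
      have h4 : (Lagrange.nodal (s.erase σ) id).eval σ ≠ 0 := by
        have := Lagrange.nodalWeight_ne_zero hinj hσ
        rw [Lagrange.nodalWeight_eq_eval_nodal_erase_inv] at this
        intro h
        apply this
        simp only [id] at h ⊢
        rw [inv_eq_zero]
        exact h
      have h5 : Lagrange.basis s id σ =
          C ((Lagrange.nodal (s.erase σ) id).eval σ)⁻¹ * Lagrange.nodal (s.erase σ) id := by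
        rw [Lagrange.basis_eq_prod_sub_inv_mul_nodal_div hσ, ← Lagrange.nodal_erase_eq_nodal_div hσ,
          Lagrange.nodalWeight_eq_eval_nodal_erase_inv]
        rfl
      rw [hfac, Lagrange.nodal_eq_mul_nodal_erase hσ, h5, h2]
      simp only [id]
      have h6 : C (l * (Lagrange.nodal (s.erase σ) id).eval σ) *
          ((X - C σ) * (C ((Lagrange.nodal (s.erase σ) id).eval σ)⁻¹ *
            Lagrange.nodal (s.erase σ) id)) =
          C (l * ((Lagrange.nodal (s.erase σ) id).eval σ *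
            ((Lagrange.nodal (s.erase σ) id).eval σ)⁻¹)) *
            ((X - C σ) * Lagrange.nodal (s.erase σ) id) := by
        simp only [C_mul]
        ring
      have h7 := mul_inv_cancel₀ h4
      rw [h6, h7, mul_one]
    have h2 := congrArg (fun q => aeval A q x) h1
    simp only [map_sub, map_mul, aeval_C, aeval_X, ContinuousLinearMap.sub_apply,
      ContinuousLinearMap.mul_apply, Algebra.algebraMap_eq_smul_one,
      ContinuousLinearMap.smul_apply, ContinuousLinearMap.one_apply] at h2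
    have h3 : ζ • x - aeval A P x = -(aeval A P x - ζ • x) := by abel
    rw [h3, h2]
    show -(P.derivative.eval σ • A (u σ) - P.derivative.eval σ • σ • u σ) = _
    rw [smul_sub]
    abel
  have hpos : 0 ≤ ((starRingEnd ℂ) ζ * ⟪x, ζ • x - aeval A P x⟫_ℂ).re := by
    have e1 : ⟪x, ζ • x - aeval A P x⟫_ℂ =
        ∑ σ ∈ s, P.derivative.eval σ * ⟪u σ, σ • u σ - A (u σ)⟫_ℂ := by
      conv_lhs => rw [← hux]
      rw [sum_inner]
      apply Finset.sum_congr rfl
      intro σ hσ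
      rw [hux, hRx σ hσ, inner_smul_right]
    rw [e1, Finset.mul_sum, Complex.re_sum]
    apply Finset.sum_nonneg
    intro σ hσ
    by_cases h0 : u σ = 0
    · rw [h0]
      simp
    · have hn : 0 < ‖u σ‖ := norm_pos_iff.2 h0
      set y : H := ((‖u σ‖⁻¹ : ℝ) : ℂ) • u σ with hy
      have hy1 : ‖y‖ = 1 := by
        rw [hy, norm_smul, Complex.norm_real, norm_inv, norm_norm, inv_mul_cancel₀ hn.ne']
      have hsup := support hconv (σ := σ) (z := ⟪y, A y⟫_ℂ) (by rw [hs σ hσ]; exact hζM) (hA y hy1)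
      rw [hs σ hσ] at hsup
      have huy : u σ = ((‖u σ‖ : ℝ) : ℂ) • y := by
        rw [hy, smul_smul, ← Complex.ofReal_mul, mul_inv_cancel₀ hn.ne', Complex.ofReal_one,
          one_smul]
      have e2' : ∀ (c : ℝ) (v : H), ‖v‖ = 1 → ⟪(c : ℂ) • v, σ • ((c : ℂ) • v) - A ((c : ℂ) • v)⟫_ℂ =
          ((c ^ 2 : ℝ) : ℂ) * (σ - ⟪v, A v⟫_ℂ) := by
        intro c v hv
        rw [map_smul, inner_sub_right, inner_smul_left, inner_smul_right, inner_smul_right,
          inner_smul_left, inner_smul_right, inner_self_eq_norm_sq_to_K, hv, Complex.conj_ofReal]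
        push_cast
        ring
      have e2 : ⟪u σ, σ • u σ - A (u σ)⟫_ℂ = ((‖u σ‖ ^ 2 : ℝ) : ℂ) * (σ - ⟪y, A y⟫_ℂ) := by
        have := e2' ‖u σ‖ y hy1
        rw [← huy] at this
        exact this
      rw [e2]
      have e3 : (starRingEnd ℂ) ζ * (P.derivative.eval σ *
          (((‖u σ‖ ^ 2 : ℝ) : ℂ) * (σ - ⟪y, A y⟫_ℂ))) =
          ((‖u σ‖ ^ 2 : ℝ) : ℂ) * ((starRingEnd ℂ) ζ * (P.derivative.eval σ * (σ - ⟪y, A y⟫_ℂ))) := by
        ring
      rw [e3, Complex.re_ofReal_mul]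
      exact mul_nonneg (by positivity) hsup
  rw [inner_sub_right, mul_sub, Complex.sub_re] at hpos
  have e4 : ((starRingEnd ℂ) ζ * ⟪x, ζ • x⟫_ℂ).re = M ^ 2 * ‖x‖ ^ 2 := by
    rw [inner_smul_right, inner_self_eq_norm_sq_to_K, ← mul_assoc, mul_comm ((starRingEnd ℂ) ζ),
      Complex.mul_conj, Complex.normSq_eq_norm_sq, hζM]
    norm_cast
    show (((M ^ 2 : ℝ) : ℂ) * ((‖x‖ ^ 2 : ℝ) : ℂ)).re = M ^ 2 * ‖x‖ ^ 2
    rw [← Complex.ofReal_mul, Complex.ofReal_re]
  rw [e4] at hpos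
  linarith

theorem numRadius_le {P : ℂ[X]} {M : ℝ} (hM : 0 < M)
    (hconv : Convex ℝ {z : ℂ | ‖P.eval z‖ ≤ M}) (A : H →L[ℂ] H)
    (hA : ∀ x : H, ‖x‖ = 1 → ‖P.eval ⟪x, A x⟫_ℂ‖ ≤ M) (x : H) :
    ‖⟪x, aeval A P x⟫_ℂ‖ ≤ M * ‖x‖ ^ 2 := by
  by_cases hP : P.natDegree = 0
  · obtain ⟨c, hc⟩ := natDegree_eq_zero.1 hP
    rw [← hc, aeval_C, Algebra.algebraMap_eq_smul_one, ContinuousLinearMap.smul_apply,
      ContinuousLinearMap.one_apply, inner_smul_right, norm_mul, inner_self_eq_norm_sq_to_K]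
    by_cases hx : x = 0
    · rw [hx]
      simp
    · have hn : 0 < ‖x‖ := norm_pos_iff.2 hx
      have h1 := hA (((‖x‖⁻¹ : ℝ) : ℂ) • x) (by
        rw [norm_smul, Complex.norm_real, norm_inv, norm_norm, inv_mul_cancel₀ hn.ne'])
      rw [← hc, eval_C] at h1
      have h2 : ‖(((‖x‖ : ℝ) : ℂ)) ^ 2‖ = ‖x‖ ^ 2 := by
        rw [norm_pow, Complex.norm_real, norm_norm]
      have h3 : ‖((‖x‖ : ℂ)) ^ 2‖ = ‖x‖ ^ 2 := h2
      calc ‖c‖ * ‖((‖x‖ : ℂ)) ^ 2‖ = ‖c‖ * ‖x‖ ^ 2 := by rw [h3]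
        _ ≤ M * ‖x‖ ^ 2 := mul_le_mul_of_nonneg_right h1 (by positivity)
  · set w := ⟪x, aeval A P x⟫_ℂ with hw
    by_cases hw0 : w = 0
    · rw [hw0, norm_zero]
      positivity
    · have hwn : 0 < ‖w‖ := norm_pos_iff.2 hw0
      set B : Set ℂ := {ζ | ∃ c, P.derivative.eval c = 0 ∧ P.eval c = ζ} with hB
      have hP' : P.derivative ≠ 0 := by
        intro h
        exact hP (natDegree_eq_zero_of_derivative_eq_zero h)
      have hBfin : B.Finite := by
        have h1 : B ⊆ (fun c => P.eval c) '' (P.derivative.roots.toFinset : Set ℂ) := by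
          rintro ζ ⟨c, hc1, hc2⟩
          refine ⟨c, ?_, hc2⟩
          rw [Finset.mem_coe, Multiset.mem_toFinset, mem_roots hP']
          exact hc1
        exact ((Finset.finite_toSet _).image _).subset h1
      set θ : ℝ → ℂ := fun t => (M * (w / ‖w‖)) * Complex.exp (t * Complex.I) with hθ
      have hθn : ∀ t, ‖θ t‖ = M := by
        intro t
        rw [hθ]
        dsimp only
        rw [norm_mul, norm_mul, norm_div, Complex.norm_real, Complex.norm_real, norm_norm,
          div_self hwn.ne', Complex.norm_exp_ofReal_mul_I, Real.norm_eq_abs, abs_of_pos hM]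
        ring
      have hev : ∀ᶠ t in 𝓝[>] (0:ℝ), θ t ∉ B := by
        have hinj : Set.InjOn θ (Set.Ioo 0 1) := by
          intro a ha b hb hab
          have h1 : (M * (w / ‖w‖) : ℂ) ≠ 0 := by
            apply mul_ne_zero (by exact_mod_cast hM.ne')
            exact div_ne_zero hw0 (by exact_mod_cast hwn.ne')
          have h2 : Complex.exp (a * Complex.I) = Complex.exp (b * Complex.I) :=
            mul_left_cancel₀ h1 hab
          have h3 := congrArg Complex.arg h2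
          rw [Complex.arg_exp_mul_I, Complex.arg_exp_mul_I] at h3
          have hpi := Real.pi_gt_three
          rw [(toIocMod_eq_self _).2 ⟨by linarith [ha.1], by linarith [ha.2]⟩,
            (toIocMod_eq_self _).2 ⟨by linarith [hb.1], by linarith [hb.2]⟩] at h3
          exact h3
        have hfin : (Set.Ioo (0:ℝ) 1 ∩ θ ⁻¹' B).Finite := by
          apply Set.Finite.of_finite_image (f := θ)
          · exact hBfin.subset (by rintro _ ⟨t, ⟨-, ht⟩, rfl⟩; exact ht)
          · exact hinj.mono Set.inter_subset_left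
        have h4 : (Set.Ioo (0:ℝ) 1 ∩ θ ⁻¹' B)ᶜ ∈ 𝓝 (0:ℝ) := by
          apply hfin.isClosed.isOpen_compl.mem_nhds
          rintro ⟨h5, -⟩
          exact lt_irrefl _ h5.1
        filter_upwards [nhdsWithin_le_nhds h4, Ioo_mem_nhdsGT (show (0:ℝ) < 1 by norm_num)] with t h5 h6 h7
        exact h5 ⟨h6, h7⟩
      have hineq : ∀ᶠ t in 𝓝[>] (0:ℝ), ((starRingEnd ℂ) (θ t) * w).re ≤ M ^ 2 * ‖x‖ ^ 2 := by
        filter_upwards [hev] with t ht
        apply key hP hconv A hA (hθn t)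
        intro c hc1 hc2
        exact ht ⟨c, hc1, hc2⟩
      have hcont : Continuous (fun t : ℝ => ((starRingEnd ℂ) (θ t) * w).re) := by
        rw [hθ]
        fun_prop
      have hlim : Filter.Tendsto (fun t : ℝ => ((starRingEnd ℂ) (θ t) * w).re) (𝓝[>] 0)
          (𝓝 ((starRingEnd ℂ) (θ 0) * w).re) := (hcont.tendsto 0).mono_left nhdsWithin_le_nhds
      have h8 := le_of_tendsto hlim hineq
      have h9 : ((starRingEnd ℂ) (θ 0) * w).re = M * ‖w‖ := by
        rw [hθ]
        dsimp only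
        rw [Complex.ofReal_zero, zero_mul, Complex.exp_zero, mul_one, map_mul, map_div₀,
          Complex.conj_ofReal, Complex.conj_ofReal]
        have : (M : ℂ) * ((starRingEnd ℂ) w / ‖w‖) * w = ((M * ‖w‖ : ℝ) : ℂ) := by
          have h10 : (starRingEnd ℂ) w * w = ((‖w‖ : ℝ) : ℂ) ^ 2 := by
            rw [mul_comm, Complex.mul_conj, Complex.normSq_eq_norm_sq]
            push_cast
            rfl
          have h11 : ((‖w‖ : ℝ) : ℂ) ≠ 0 := by exact_mod_cast hwn.ne'
          calc (M : ℂ) * ((starRingEnd ℂ) w / ‖w‖) * w = M * ((starRingEnd ℂ) w * w) / ‖w‖ := by ring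
            _ = M * ((‖w‖ : ℝ) : ℂ) ^ 2 / ‖w‖ := by rw [h10]
            _ = ((M * ‖w‖ : ℝ) : ℂ) := by
              push_cast
              field_simp
        rw [this, Complex.ofReal_re]
      rw [h9] at h8
      have h12 : M * ‖w‖ ≤ M * (M * ‖x‖ ^ 2) := by nlinarith
      exact le_of_mul_le_mul_left h12 hM

theorem opNorm_le {B : H →L[ℂ] H} {M : ℝ} (hM : 0 ≤ M)
    (hB : ∀ x : H, ‖⟪x, B x⟫_ℂ‖ ≤ M * ‖x‖ ^ 2) : ‖B‖ ≤ 2 * M := by
  have hB' : ∀ x : H, ‖⟪B x, x⟫_ℂ‖ ≤ M * ‖x‖ ^ 2 := by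
    intro x
    rw [norm_inner_symm]
    exact hB x
  have key : ∀ x y : H, ‖x‖ = 1 → ‖y‖ = 1 → ‖⟪B x, y⟫_ℂ‖ ≤ 2 * M := by
    intro x y hx hy
    have h := inner_map_polarization' (B : H →ₗ[ℂ] H) x y
    simp only [ContinuousLinearMap.coe_coe] at h
    rw [h, norm_div]
    have h4 : ‖(4:ℂ)‖ = 4 := by norm_num
    rw [h4, div_le_iff₀ (by norm_num)]
    have p1 := parallelogram_law_with_norm ℂ x y
    have p2 := parallelogram_law_with_norm ℂ x (Complex.I • y)
    have hIy : ‖Complex.I • y‖ = 1 := by rw [norm_smul, Complex.norm_I, hy, one_mul]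
    rw [hx, hy] at p1
    rw [hx, hIy] at p2
    have e1 := hB' (x + y)
    have e2 := hB' (x - y)
    have e3 := hB' (x + Complex.I • y)
    have e4 := hB' (x - Complex.I • y)
    calc _ ≤ ‖⟪B (x + y), x + y⟫_ℂ‖ + ‖⟪B (x - y), x - y⟫_ℂ‖ +
          ‖Complex.I * ⟪B (x + Complex.I • y), x + Complex.I • y⟫_ℂ‖ +
          ‖Complex.I * ⟪B (x - Complex.I • y), x - Complex.I • y⟫_ℂ‖ := by
          refine le_trans (norm_add_le _ _) ?_
          gcongr
          refine le_trans (norm_sub_le _ _) ?_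
          gcongr
          exact norm_sub_le _ _
      _ = ‖⟪B (x + y), x + y⟫_ℂ‖ + ‖⟪B (x - y), x - y⟫_ℂ‖ +
          ‖⟪B (x + Complex.I • y), x + Complex.I • y⟫_ℂ‖ +
          ‖⟪B (x - Complex.I • y), x - Complex.I • y⟫_ℂ‖ := by
          rw [norm_mul, norm_mul, Complex.norm_I, one_mul, one_mul]
      _ ≤ 2 * M * 4 := by nlinarith
  apply ContinuousLinearMap.opNorm_le_bound _ (by positivity)
  intro x
  by_cases hx : x = 0
  · rw [hx]
    simp
  by_cases hBx : B x = 0
  · rw [hBx, norm_zero]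
    positivity
  have hn : 0 < ‖x‖ := norm_pos_iff.2 hx
  have hm : 0 < ‖B x‖ := norm_pos_iff.2 hBx
  have h1 := key (((‖x‖⁻¹ : ℝ) : ℂ) • x) (((‖B x‖⁻¹ : ℝ) : ℂ) • B x) (by
      rw [norm_smul, Complex.norm_real, norm_inv, norm_norm, inv_mul_cancel₀ hn.ne']) (by
      rw [norm_smul, Complex.norm_real, norm_inv, norm_norm, inv_mul_cancel₀ hm.ne'])
  rw [map_smul, inner_smul_left, inner_smul_right, norm_mul, norm_mul,
    inner_self_eq_norm_sq_to_K, RCLike.norm_conj, Complex.norm_real, Complex.norm_real,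
    norm_inv, norm_inv, norm_norm, norm_norm, norm_pow] at h1
  have h2 : ‖((‖B x‖ : ℝ) : ℂ)‖ = ‖B x‖ := by rw [Complex.norm_real, norm_norm]
  have h3 : ‖(‖B x‖ : ℂ)‖ = ‖B x‖ := h2
  have h4 : ‖x‖⁻¹ * (‖B x‖⁻¹ * ‖B x‖ ^ 2) ≤ 2 * M := by
    convert h1 using 3
    rw [← h3]
    simp
  have h5 : ‖x‖⁻¹ * (‖B x‖⁻¹ * ‖B x‖ ^ 2) = ‖B x‖ / ‖x‖ := by
    field_simp
  rw [h5, div_le_iff₀ hn] at h4
  exact h4

end Vale.Agent.H13.Crouzeix
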